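import Vale.Agent.P355.H693W.Sym

/-! Patterns of coincidence of the internal vertices of two flags. -/

namespace Vale.Agent.P355.H693W

open Finset Vale.Agent.P355 Vale.Agent.P355.H138 Vale.Agent.P355.H693.Inj
open Vale.Agent.P355.H387 (Cls)

set_option linter.unusedSectionVars false

variable {F : Bool → Mt → ℝ}

/-- the rows `> r` vanish. -/
def SupR (r : ℕ) (n : Fl) : Prop := ∀ i : Fin 3, r < i.val → ∀ q, n (some i) q = 0

theorem push_congr {n : Fl} {r : ℕ} (h : SupR r n) {φ φ' : Fin 3 → Fin 6} (ψ : Fin 3 → Fin 6)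
    (hφ : ∀ i : Fin 3, i.val ≤ r → φ i = φ' i) : push φ ψ n = push φ' ψ n := by
  funext p' q'
  unfold push
  refine Finset.sum_congr rfl fun p _ => ?_
  rcases p with _ | i
  · rfl
  · by_cases hi : i.val ≤ r
    · refine Finset.sum_congr rfl fun q _ => ?_
      have e : (some i : Option (Fin 3)).map φ = (some i : Option (Fin 3)).map φ' := by
        show some (φ i) = some (φ' i)
        rw [hφ i hi]
      rw [e]
    · have h0 := h i (by omega)
      simp only [h0, ite_self]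

/-- canonical position. -/
def cn (rk rl : ℕ) (f : Fin 5 × Fin 5) : Fin 5 × Fin 5 :=
  if rl = 0 then (2, 3)
  else if rl = 1 then (if f.1.val < rk then (f.1, 3) else (2, 3))
  else if f.1.val < rk then (if f.2.val < rk then f else (f.1, 2))
  else if f.2.val < rk then (2, f.2) else (2, 3)

/-- permutation to the canonical position. -/
def sg (rk rl : ℕ) (f : Fin 5 × Fin 5) : Equiv.Perm (Fin 5) :=
  if rl = 0 then 1
  else if rl = 1 then Equiv.swap f.1 (cn rk rl f).1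
  else Equiv.swap (Equiv.swap f.1 (cn rk rl f).1 f.2) (cn rk rl f).2
    * Equiv.swap f.1 (cn rk rl f).1

theorem sg_spec : ∀ rk : Fin 3, ∀ rl : Fin 3, ∀ a b : Fin 5, a ≠ b →
    (1 ≤ rl.val → sg rk rl (a, b) a = (cn rk rl (a, b)).1) ∧
    (2 ≤ rl.val → sg rk rl (a, b) b = (cn rk rl (a, b)).2) ∧
    (1 ≤ rk.val → sg rk rl (a, b) 0 = 0) ∧ (2 ≤ rk.val → sg rk rl (a, b) 1 = 1) := by
  decide +kernel

/-- the patterns. -/
def pat : ℕ → ℕ → List (ℕ × (Fin 5 × Fin 5))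
  | _, 0 => [(20, (2, 3))]
  | 0, 1 => [(20, (2, 3))]
  | 1, 1 => [(4, (0, 3)), (16, (2, 3))]
  | _, 1 => [(4, (0, 3)), (4, (1, 3)), (12, (2, 3))]
  | 0, _ => [(20, (2, 3))]
  | 1, _ => [(4, (0, 2)), (4, (2, 0)), (12, (2, 3))]
  | _, _ => [(1, (0, 1)), (1, (1, 0)), (3, (0, 2)), (3, (2, 0)), (3, (1, 2)), (3, (2, 1)),
      (6, (2, 3))]

/-- all pairs. -/
def L20 : List (Fin 5 × Fin 5) :=
  [(0, 1), (0, 2), (0, 3), (0, 4), (1, 0), (1, 2), (1, 3), (1, 4), (2, 0), (2, 1), (2, 3), (2, 4),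
   (3, 0), (3, 1), (3, 2), (3, 4), (4, 0), (4, 1), (4, 2), (4, 3)]

theorem sum_Pl (ψ : Fin 5 × Fin 5 → ℝ) : ∑ f : Pl, ψ f.1 = (L20.map ψ).sum := by
  have h1 : ∑ f : Pl, ψ f.1
      = ∑ f ∈ (Finset.univ.filter fun e : Fin 5 × Fin 5 => e.1 ≠ e.2), ψ f := by
    rw [Finset.sum_subtype (Finset.univ.filter fun e : Fin 5 × Fin 5 => e.1 ≠ e.2)
      (p := fun e => e.1 ≠ e.2) (by intro e; simp) ψ]
  have h2 : (Finset.univ.filter fun e : Fin 5 × Fin 5 => e.1 ≠ e.2) = L20.toFinset := by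
    decide +kernel
  rw [h1, h2, List.sum_toFinset _ (by decide)]

theorem perm_pat : ∀ rk : Fin 3, ∀ rl : Fin 3,
    (L20.map (cn rk rl)).Perm ((pat rk rl).flatMap fun p => List.replicate p.1 p.2) := by
  decide +kernel

theorem sum_rep (ψ : Fin 5 × Fin 5 → ℝ) (l : List (ℕ × (Fin 5 × Fin 5))) :
    ((l.flatMap fun p => List.replicate p.1 p.2).map ψ).sum
      = (l.map fun p => (p.1 : ℝ) * ψ p.2).sum := by
  induction l with
  | nil => simp
  | cons a l ih =>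
    rw [List.flatMap_cons, List.map_append, List.sum_append, ih, List.map_cons, List.sum_cons,
      List.map_replicate, List.sum_replicate, nsmul_eq_mul]

theorem sum_pat {rk rl : ℕ} (hk : rk < 3) (hl : rl < 3) (ψ : Fin 5 × Fin 5 → ℝ)
    (h : ∀ f : Fin 5 × Fin 5, f.1 ≠ f.2 → ψ f = ψ (cn rk rl f)) :
    ∑ f : Pl, ψ f.1 = ((pat rk rl).map fun p => (p.1 : ℝ) * ψ p.2).sum := by
  have h1 : ∑ f : Pl, ψ f.1 = ∑ f : Pl, ψ (cn rk rl f.1) :=
    Finset.sum_congr rfl fun f _ => h f.1 f.2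
  rw [h1, sum_Pl fun f => ψ (cn rk rl f), ← sum_rep]
  have h2 := (perm_pat ⟨rk, hk⟩ ⟨rl, hl⟩).map ψ
  rw [← h2.sum_eq, List.map_map]
  rfl

/-- the product depends on the pattern only. -/
theorem tF_canon (hC : Cls F) (b : Bool) {n n' : Fl} {rk rl : ℕ} (hk : rk < 3) (hl : rl < 3)
    (hn : SupR rk n) (hn' : SupR rl n') (ψ ψ' : Fin 3 → Fin 6) (f : Fin 5 × Fin 5)
    (hf : f.1 ≠ f.2) :
    tF F b n n' (ph e0.1) ψ (ph f) ψ' = tF F b n n' (ph e0.1) ψ (ph (cn rk rl f)) ψ' := by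
  obtain ⟨h1, h2, h3, h4⟩ := sg_spec ⟨rk, hk⟩ ⟨rl, hl⟩ f.1 f.2 hf
  rw [← tF_perm hC b n n' (ph e0.1) ψ (ph f) ψ' (aP (sg rk rl f)) 1]
  have e1 : push (aP (sg rk rl f) ∘ ph e0.1) (⇑(1 : Pm) ∘ ψ) n = push (ph e0.1) ψ n := by
    have : (⇑(1 : Pm) ∘ ψ) = ψ := rfl
    rw [this]
    refine push_congr hn ψ fun i hi => ?_
    rw [← ph_aE]
    fin_cases i
    · rfl
    · show (sg rk rl f 0).succ = (0 : Fin 5).succ
      rw [h3 hi]
    · show (sg rk rl f 1).succ = (1 : Fin 5).succ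
      rw [h4 hi]
  have e2 : push (aP (sg rk rl f) ∘ ph f) (⇑(1 : Pm) ∘ ψ') n' = push (ph (cn rk rl f)) ψ' n' := by
    have : (⇑(1 : Pm) ∘ ψ') = ψ' := rfl
    rw [this]
    refine push_congr hn' ψ' fun i hi => ?_
    rw [← ph_aE]
    fin_cases i
    · rfl
    · show (sg rk rl f f.1).succ = (cn rk rl f).1.succ
      rw [h1 hi]
    · show (sg rk rl f f.2).succ = (cn rk rl f).2.succ
      rw [h2 hi]
  unfold tF
  rw [e1, e2]

theorem SupR_tr_col {n : Fl} {r : ℕ} (h : SupR r (tr n)) {ψ ψ' : Fin 3 → Fin 6}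
    (φ : Fin 3 → Fin 6) (hφ : ∀ i : Fin 3, i.val ≤ r → ψ i = ψ' i) :
    push φ ψ n = push φ ψ' n := by
  have := push_congr h φ hφ
  funext p q
  have h2 := congrFun (congrFun this q) p
  rw [push_tr, push_tr] at h2
  exact h2

theorem tF_tr (hC : Cls F) (b : Bool) (n n' : Fl) (φ ψ φ' ψ' : Fin 3 → Fin 6) :
    tF F b (tr n) (tr n') φ ψ φ' ψ' = tF F b n n' ψ φ ψ' φ' := by
  unfold tF
  simp only [push_tr]
  exact hC.swap b (fun p q => push ψ φ n p q - push ψ' φ' n' p q)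

/-- **The sum over placements by patterns.** -/
theorem sF_pat (hC : Cls F) (b : Bool) {n n' : Fl} {rk rl sk sl : ℕ} (hk : rk < 3) (hl : rl < 3)
    (hk' : sk < 3) (hl' : sl < 3) (hn : SupR rk n) (hn' : SupR rl n')
    (hm : SupR sk (tr n)) (hm' : SupR sl (tr n')) :
    sF F b n n' = ((pat rk rl).map fun p => (p.1 : ℝ) * ((pat sk sl).map fun q => (q.1 : ℝ) *
      tF F b n n' (ph e0.1) (ph e0.1) (ph p.2) (ph q.2)).sum).sum := by
  unfold sF
  have inner : ∀ φ : Fin 3 → Fin 6,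
      ∑ g : Pl, tF F b n n' (ph e0.1) (ph e0.1) φ (ph g.1)
      = ((pat sk sl).map fun q => (q.1 : ℝ) *
        tF F b n n' (ph e0.1) (ph e0.1) φ (ph q.2)).sum := by
    intro φ
    refine sum_pat hk' hl' (fun g => tF F b n n' (ph e0.1) (ph e0.1) φ (ph g)) fun g hg => ?_
    have h1 := tF_canon hC b hk' hl' hm hm' (ph e0.1) φ g hg
    rw [tF_tr hC, tF_tr hC] at h1
    exact h1
  have e1 : ∑ f : Pl, ∑ g : Pl, tF F b n n' (ph e0.1) (ph e0.1) (ph f.1) (ph g.1)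
      = ∑ f : Pl, ((pat sk sl).map fun q => (q.1 : ℝ) *
        tF F b n n' (ph e0.1) (ph e0.1) (ph f.1) (ph q.2)).sum :=
    Finset.sum_congr rfl fun f _ => inner (ph f.1)
  rw [e1]
  refine sum_pat hk hl (fun f => ((pat sk sl).map fun q => (q.1 : ℝ) *
    tF F b n n' (ph e0.1) (ph e0.1) (ph f) (ph q.2)).sum) fun f hf => ?_
  refine congrArg List.sum (List.map_congr_left fun q _ => ?_)
  rw [tF_canon hC b hk hl hn hn' (ph e0.1) (ph q.2) f hf]

end Vale.Agent.P355.H693W
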