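import Vale.Agent.P355.H693W.Fin

/-! End step with classes of three and of four vertices on a side (grids of size three and four). -/

namespace Vale.Agent.P355.H693W

open Finset Matrix Vale.Agent.P355 Vale.Agent.P355.H129
open Vale.Agent.P355.H138 (Tr BrP RwP vl)
open Vale.Agent.P355.H138 (Base)
open Vale.Agent.P355.H387 (evL ckFin CT)
open Vale.Agent.P355.H693.Inj (riv)

set_option linter.unusedSectionVars false
set_option linter.unusedSimpArgs false

variable {W W4 : ℕ}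

/-- result of bridge modules for a `K`-grid with constant `κ`. -/
def BrK (K : ℕ) (κ : ℝ) (x : Fin 7 → Fin 7 → ℂ) (W : ℕ) (tr : Tr) (ct : CT)
    (out : List (ℕ × ℕ)) (P Q M : ℕ) : Prop :=
  ∃ p q, NRep W (vl K x tr) P M p ∧ NRep W (vl K x tr) Q M q ∧ κ * (p - q) = evL (riv x) ct out

theorem BrK.nil {K : ℕ} {κ : ℝ} {x : Fin 7 → Fin 7 → ℂ} {tr : Tr} {ct : CT} :
    BrK K κ x W tr ct [] 0 0 0 :=
  ⟨0, 0, NRep.zero, NRep.zero, by simp [evL]⟩

theorem BrK.app {K : ℕ} {κ : ℝ} {x : Fin 7 → Fin 7 → ℂ} {tr : Tr} {ct : CT}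
    {out out' : List (ℕ × ℕ)} {P Q M P' Q' M' : ℕ}
    (h : BrK K κ x W tr ct out P Q M) (h' : BrK K κ x W tr ct out' P' Q' M') :
    BrK K κ x W tr ct (out ++ out') (P + P') (Q + Q') (M + M') := by
  obtain ⟨p, q, h1, h2, h3⟩ := h
  obtain ⟨p', q', h1', h2', h3'⟩ := h'
  refine ⟨p + p', q + q', h1.add h1', h2.add h2', ?_⟩
  rw [H387.evL_append, ← h3, ← h3']; ring

/-- **Positivity of two lists of codes** (three and four vertices): the bridge records of the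
first list are made with all coefficients multiplied by `36`. -/
theorem lval_posI2 {x : Fin 7 → Fin 7 → ℂ} (hx : Base x) {tr tr4 : Tr} {ct : CT}
    {l l4 : List (ℤ × Bool × ℤ)} {ids ids4 : List ℕ} {PT QT MT MT' M PT4 QT4 MT4 MT4' M4 : ℕ}
    (hpk : pk W tr l ids = some ((PT, MT), (QT, MT')))
    (hpk4 : pk W4 tr4 l4 ids4 = some ((PT4, MT4), (QT4, MT4')))
    {oT oT4 oS oR : List (ℕ × ℕ)} (hT : BrP x W tr ct oT (36 * PT) (36 * QT) M)
    (hT4 : BrK 4 1679616 x W4 tr4 ct oT4 PT4 QT4 M4) (hS : 0 ≤ evL (riv x) ct oS)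
    (hR : RwP x ct oR) {e E : ℕ} (hM : 36 * MT < 2 ^ W) (hM' : 36 * MT' < 2 ^ W)
    (hM'' : M < 2 ^ W) (hM4 : MT4 < 2 ^ W4) (hM4' : MT4' < 2 ^ W4) (hM4'' : M4 < 2 ^ W4)
    (h1 : isOne ct e = true) (he : Nat.land e 1208925819614629174706175 = e)
    (hF : ckFin ct (oT ++ oT4) (oS ++ (oR ++ oneL e)) E = true)
    (hμ : 5 * E < 2 * Nat.shiftRight e 19) : 0 < lval 3 x l + lval 4 x l4 := by
  obtain ⟨p, q, hp, hq, hpq⟩ := pk_sound (W := W) (K := 3) (x := x) l ids PT MT QT MT' hpk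
  obtain ⟨u, v, hu, hv, huv⟩ := pk_sound (W := W4) (K := 4) (x := x) l4 ids4 PT4 MT4 QT4 MT4' hpk4
  obtain ⟨p', q', hp', hq', hpq'⟩ := hT
  obtain ⟨u', v', hu', hv', huv'⟩ := hT4
  have e1 := (hp.smul 36).unique hp' hM hM''
  have e2 := (hq.smul 36).unique hq' hM' hM''
  have e3 := hu.unique hu' hM4 hM4''
  have e4 := hv.unique hv' hM4' hM4''
  have h4 := H387.ckFin_sound (F := riv x) (c := 5 / 2) (by norm_num)
    (fun b M => H693.Inj.abs_riv_le hx b M) hF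
  rw [H387.evL_append, H387.evL_append, H387.evL_append, evL_oneL he, isOne_spec h1] at h4
  unfold RwP at hR
  have h5 : (5 : ℝ) * E < 2 * ((Nat.shiftRight e 19 : ℕ) : ℝ) := by exact_mod_cast hμ
  have h6 := (abs_le.1 h4).1
  rw [hR, ← hpq', ← huv', ← e1, ← e2, ← e3, ← e4] at h6
  have e5 : (46656 : ℝ) * (((36 : ℕ) : ℝ) * p - ((36 : ℕ) : ℝ) * q) + 1679616 * (u - v)
      = 1679616 * (lval 3 x l + lval 4 x l4) := by
    rw [← hpq, ← huv]; push_cast; ring
  rw [e5] at h6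
  by_contra hcon
  have h7 : lval 3 x l + lval 4 x l4 ≤ 0 := not_lt.1 hcon
  linarith

/-- a pointwise inequality for two lists of records. -/
theorem V_T2 {m N c K K' : ℕ} {B : Fin m → M6} (hB : IsMUBs B) (hc : 3 ≤ c) {ct : H693.GT}
    {L L' : List H693.VR} (hL : (L.all fun r => r.ok N c K (H693.tabG ct) 6 0) = true)
    (hL' : (L'.all fun r => r.ok N c K' (H693.tabG ct) 6 0) = true)
    (hQ : ∀ x, H138.Good false x → H182.N7x x →
      0 ≤ lval K x (L.map H693.VR.term) + lval K' x (L'.map H693.VR.term)) :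
    0 ≤ H693.valT (H147.cv B N c) ct (L.map H693.VR.ct ++ L'.map H693.VR.ct) := by
  rw [H693.valT_append, H693.valT_VR, H693.valT_VR]
  have h1 := H693.avF_list hB hc (K := K) (wb := 6) (wb' := 0) (tab := H693.tabG ct) (by norm_num)
    (by norm_num) (fun h => absurd h (by norm_num)) hL
  have h2 := H693.avF_list hB hc (K := K') (wb := 6) (wb' := 0) (tab := H693.tabG ct) (by norm_num)
    (by norm_num) (fun h => absurd h (by norm_num)) hL'
  rw [← h1, ← h2, ← H693.avF_add]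
  exact H693.avF_nonneg 6 0 fun e b b' _ =>
    hQ _ (H693.xF_good hB hc 0 e b b') (H693.xF_n7 hB hc 0 e b b')

/-- **Inequality of the coloured level** by the injective route, two lists. -/
theorem VI2_packed {m N c : ℕ} {B : Fin m → M6} (hB : IsMUBs B) (hc : 3 ≤ c) {ctG : H693.GT}
    {L L4 : List H693.VR} (hL : (L.all fun r => r.ok N c 3 (H693.tabG ctG) 6 0) = true)
    (hL4 : (L4.all fun r => r.ok N c 4 (H693.tabG ctG) 6 0) = true)
    {l l4 : List (ℤ × Bool × ℤ)} (hl : L.map H693.VR.term = l) (hl4 : L4.map H693.VR.term = l4)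
    {tr tr4 : Tr} {ct : CT}
    {ids ids4 : List ℕ} {PT QT MT MT' M PT4 QT4 MT4 MT4' M4 : ℕ}
    (hpk : pk W tr l ids = some ((PT, MT), (QT, MT')))
    (hpk4 : pk W4 tr4 l4 ids4 = some ((PT4, MT4), (QT4, MT4')))
    {oT oT4 oS oR : List (ℕ × ℕ)}
    (hT : ∀ x, H138.Good false x → H182.N7x x → BrP x W tr ct oT (36 * PT) (36 * QT) M)
    (hT4 : ∀ x, H138.Good false x → H182.N7x x → BrK 4 1679616 x W4 tr4 ct oT4 PT4 QT4 M4)
    (hS : ∀ x, H138.Good false x → H182.N7x x → 0 ≤ evL (riv x) ct oS)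
    (hR : ∀ x, H138.Good false x → H182.N7x x → RwP x ct oR)
    {e E : ℕ} (hM : 36 * MT < 2 ^ W) (hM' : 36 * MT' < 2 ^ W)
    (hM'' : M < 2 ^ W) (hM4 : MT4 < 2 ^ W4) (hM4' : MT4' < 2 ^ W4) (hM4'' : M4 < 2 ^ W4)
    (h1 : isOne ct e = true) (he : Nat.land e 1208925819614629174706175 = e)
    (hF : ckFin ct (oT ++ oT4) (oS ++ (oR ++ oneL e)) E = true)
    (hμ : 5 * E < 2 * Nat.shiftRight e 19) :
    0 ≤ H693.valT (H147.cv B N c) ctG (L.map H693.VR.ct ++ L4.map H693.VR.ct) :=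
  V_T2 hB hc hL hL4 fun x hx hN => by
    rw [hl, hl4]
    exact (lval_posI2 hx.1 hpk hpk4 (hT x hx hN) (hT4 x hx hN) (hS x hx hN) (hR x hx hN) hM hM'
      hM'' hM4 hM4' hM4'' h1 he hF hμ).le

end Vale.Agent.P355.H693W
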