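import Vale.Agent.P355.H693.PkT
import Vale.Agent.P355.H693.GRes

/-! Final step of the injective route: a list of inequalities of the coloured level from a
positive combination of injective averages, bridge records, rows and a small residual. -/

namespace Vale.Agent.P355.H693W

open Finset Matrix Vale.Agent.P355 Vale.Agent.P355.H129
open Vale.Agent.P355.H138 (Tr BrP RwP mon pw6 Base)
open Vale.Agent.P355.H387 (evL evN ev ckFin CT FV FV_enc Enc ofD df biasC pb NM)
open Vale.Agent.P355.H693.Inj (riv iv Mt Pm)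

set_option linter.unusedSectionVars false
set_option linter.unusedSimpArgs false

variable {W : ℕ}

theorem iv_zeroM (x : Fin 7 → Fin 7 → ℂ) : iv x (fun _ _ => (0 : ℤ)) = 1 := by
  unfold iv
  have h : ∀ σ τ : Pm, mon x (fun _ _ => (0 : ℤ)) σ τ = 1 := by
    intro σ τ
    unfold mon
    simp
  simp only [h, Finset.sum_const, H693.Inj.card_pm, smul_eq_mul, nsmul_eq_mul]
  norm_num

theorem riv_zeroM (x : Fin 7 → Fin 7 → ℂ) : riv x false (fun _ _ => (0 : ℤ)) = 1 := by
  unfold riv
  rw [iv_zeroM, iv_zeroM]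
  simp [pw6]

theorem enc_zero : Enc biasC (fun _ _ => 0) := by
  refine ⟨?_, fun _ _ _ _ => by simp⟩
  have : df (fun _ _ => (0 : ℤ)) = fun _ => 32 := by
    funext i; rfl
  rw [this]
  decide +kernel

/-- the check of the entry `e` (value `+ Nat.shiftRight e 19` at the empty class). -/
noncomputable def isOne (ct : CT) (e : ℕ) : Bool :=
  Nat.beq (Nat.land (Nat.shiftRight e 18) 1) 0 &&
    Nat.beq (ct.get (Nat.land (Nat.shiftRight e 6) 4095) (Nat.land e 63)) biasC

theorem isOne_spec {x : Fin 7 → Fin 7 → ℂ} {ct : CT} {e : ℕ} (h : isOne ct e = true) :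
    ev (riv x) ct e = ((Nat.shiftRight e 19 : ℕ) : ℝ) := by
  unfold isOne at h
  rw [Bool.and_eq_true] at h
  have h1 := Nat.eq_of_beq_eq_true h.1
  have h2 := Nat.eq_of_beq_eq_true h.2
  unfold ev
  rw [h1, h2]
  have h3 := FV_enc (F := riv x) enc_zero false
  have h4 : Nat.add biasC (cond false pb 0) = biasC := rfl
  rw [h4] at h3
  have h5 : H387.toM (fun _ _ => (0 : ℤ)) = fun _ _ => (0 : ℤ) := by
    funext p q; rfl
  rw [h3, h5, riv_zeroM]
  simp

/-- list with the single entry `e`. -/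
def oneL (e : ℕ) : List (ℕ × ℕ) := [(1, e)]

theorem evL_oneL {F : Bool → Mt → ℝ} {ct : CT} {e : ℕ} (he : Nat.land e 1208925819614629174706175 = e) :
    evL F ct (oneL e) = ev F ct e := by
  have h : evL F ct (oneL e)
      = (ev F ct (Nat.land e 1208925819614629174706175) + 0) + 0 := rfl
  rw [h, he, add_zero, add_zero]

/-- **Positivity of a list of codes** from a nonnegative combination `oS` of injective averages,
bridge records `oT` of the list, rows `oR` and the entry `e` of the empty class. -/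
theorem lval_posI {x : Fin 7 → Fin 7 → ℂ} (hx : Base x) {tr : Tr} {ct : CT}
    {l : List (ℤ × Bool × ℤ)} {ids : List ℕ} {PT QT MT MT' M : ℕ}
    (hpk : pk W tr l ids = some ((PT, MT), (QT, MT')))
    {oT oS oR : List (ℕ × ℕ)} (hT : BrP x W tr ct oT PT QT M) (hS : 0 ≤ evL (riv x) ct oS)
    (hR : RwP x ct oR) {e E : ℕ} (hM : MT < 2 ^ W) (hM' : MT' < 2 ^ W) (hM'' : M < 2 ^ W)
    (h1 : isOne ct e = true) (he : Nat.land e 1208925819614629174706175 = e)
    (hF : ckFin ct oT (oS ++ (oR ++ oneL e)) E = true)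
    (hμ : 5 * E < 2 * Nat.shiftRight e 19) : 0 < lval 3 x l := by
  obtain ⟨p, q, hp, hq, hpq⟩ := pk_sound (W := W) (K := 3) (x := x) l ids PT MT QT MT' hpk
  obtain ⟨p', q', hp', hq', hpq'⟩ := hT
  have e1 := hp.unique hp' hM hM''
  have e2 := hq.unique hq' hM' hM''
  have h4 := H387.ckFin_sound (F := riv x) (c := 5 / 2) (by norm_num)
    (fun b M => H693.Inj.abs_riv_le hx b M) hF
  rw [H387.evL_append, H387.evL_append, evL_oneL he, isOne_spec h1] at h4
  unfold RwP at hR
  have h5 : (5 : ℝ) * E < 2 * ((Nat.shiftRight e 19 : ℕ) : ℝ) := by exact_mod_cast hμ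
  have h6 := (abs_le.1 h4).1
  rw [hR, ← hpq', ← e1, ← e2, hpq] at h6
  by_contra hcon
  have h7 : lval 3 x l ≤ 0 := not_lt.1 hcon
  linarith

/-- **Inequality of the coloured level** by the injective route. -/
theorem VI_packed {m N c : ℕ} {B : Fin m → M6} (hB : IsMUBs B) (hc : 3 ≤ c) {ctG : H693.GT}
    {L : List H693.VR} (hL : (L.all fun r => r.ok N c 3 (H693.tabG ctG) 6 0) = true)
    {l : List (ℤ × Bool × ℤ)} (hl : L.map H693.VR.term = l) {tr : Tr} {ct : CT}
    {ids : List ℕ} {PT QT MT MT' M : ℕ}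
    (hpk : pk W tr l ids = some ((PT, MT), (QT, MT')))
    {oT oS oR : List (ℕ × ℕ)}
    (hT : ∀ x, H138.Good false x → H182.N7x x → BrP x W tr ct oT PT QT M)
    (hS : ∀ x, H138.Good false x → H182.N7x x → 0 ≤ evL (riv x) ct oS)
    (hR : ∀ x, H138.Good false x → H182.N7x x → RwP x ct oR)
    {e E : ℕ} (hM : MT < 2 ^ W) (hM' : MT' < 2 ^ W) (hM'' : M < 2 ^ W)
    (h1 : isOne ct e = true) (he : Nat.land e 1208925819614629174706175 = e)
    (hF : ckFin ct oT (oS ++ (oR ++ oneL e)) E = true)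
    (hμ : 5 * E < 2 * Nat.shiftRight e 19) :
    0 ≤ H693.valT (H147.cv B N c) ctG (L.map H693.VR.ct) :=
  H693.V_T hB hc hL fun x hx hN => by
    rw [hl]
    exact (lval_posI hx.1 hpk (hT x hx hN) (hS x hx hN) (hR x hx hN) hM hM' hM'' h1 he hF hμ).le

end Vale.Agent.P355.H693W
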