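import Vale.Agent.P355.H693W.Fin5
import Vale.Agent.P355.H998.R.Gl

/-! End step: the squares and the rows enter through one existential statement at every point. -/

namespace Vale.Agent.P355.H693W

open Finset Matrix Vale.Agent.P355 Vale.Agent.P355.H129
open Vale.Agent.P355.H138 (Tr RwP vl)
open Vale.Agent.P355.H387 (evL CT)
open Vale.Agent.P355.H693.Inj (riv)

set_option linter.unusedSectionVars false
set_option linter.unusedSimpArgs false

variable {W : ℕ}

/-- **Positivity of a list of codes** of size `K`, value of the squares given. -/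
theorem lval_posS {K : ℕ} {x : Fin 7 → Fin 7 → ℂ} {tr : Tr} {ct : CT}
    {l : List (ℤ × Bool × ℤ)} {ids : List ℕ} {PT QT MT MT' M : ℕ}
    (hpk : pk W tr l ids = some ((PT, MT), (QT, MT')))
    {oT : List (ℕ × ℕ)} (hT : BrK K 46656 x W tr ct oT PT QT M) {s : ℝ} (hS : 0 ≤ s)
    {e E : ℕ} (hM : MT < 2 ^ W)
    (hM' : MT' < 2 ^ W) (hM'' : M < 2 ^ W)
    (h1 : isOne ct e = true) (he : Nat.land e 1208925819614629174706175 = e)
    (hF : |evL (riv x) ct oT - (s + evL (riv x) ct (oneL e))| ≤ 5 / 2 * (E : ℝ))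
    (hμ : 5 * E < 2 * Nat.shiftRight e 19) : 0 < lval K x l := by
  obtain ⟨p, q, hp, hq, hpq⟩ := pk_sound (W := W) (K := K) (x := x) l ids PT MT QT MT' hpk
  obtain ⟨p', q', hp', hq', hpq'⟩ := hT
  have e1 := hp.unique hp' hM hM''
  have e2 := hq.unique hq' hM' hM''
  rw [evL_oneL he, isOne_spec h1] at hF
  have h5 : (5 : ℝ) * E < 2 * ((Nat.shiftRight e 19 : ℕ) : ℝ) := by exact_mod_cast hμ
  have h6 := (abs_le.1 hF).1
  rw [← hpq', ← e1, ← e2, hpq] at h6
  by_contra hcon
  have h7 : lval K x l ≤ 0 := not_lt.1 hcon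
  linarith

/-- **Inequality of the coloured level** by the injective route, codes of size `K`, squares and
rows through one value. -/
theorem VIS_packed {m N c K : ℕ} {B : Fin m → M6} (hB : IsMUBs B) (hc : 3 ≤ c) {ctG : H693.GT}
    {L : List H693.VR} (hL : (L.all fun r => r.ok N c K (H693.tabG ctG) 6 0) = true)
    {l : List (ℤ × Bool × ℤ)} (hl : L.map H693.VR.term = l) {tr : Tr} {ct : CT}
    {ids : List ℕ} {PT QT MT MT' M : ℕ}
    (hpk : pk W tr l ids = some ((PT, MT), (QT, MT')))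
    {oT : List (ℕ × ℕ)}
    (hT : ∀ x, H138.Good false x → H182.N7x x → BrK K 46656 x W tr ct oT PT QT M)
    {e E : ℕ} (hM : MT < 2 ^ W) (hM' : MT' < 2 ^ W) (hM'' : M < 2 ^ W)
    (h1 : isOne ct e = true) (he : Nat.land e 1208925819614629174706175 = e)
    (hF : ∀ x, H138.Good false x → H182.N7x x → ∃ s : ℝ, 0 ≤ s ∧
      |evL (riv x) ct oT - (s + evL (riv x) ct (oneL e))| ≤ 5 / 2 * (E : ℝ))
    (hμ : 5 * E < 2 * Nat.shiftRight e 19) :
    0 ≤ H693.valT (H147.cv B N c) ctG (L.map H693.VR.ct) :=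
  H693.V_T hB hc hL fun x hx hN => by
    obtain ⟨s, hs, hF'⟩ := hF x hx hN
    rw [hl]
    exact (lval_posS hpk (hT x hx hN) hs hM hM' hM'' h1 he hF' hμ).le

end Vale.Agent.P355.H693W
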