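import Vale.Agent.P355.H693W.Fin6
import Vale.Agent.P355.H998.Q.Gl

/-! End step with wide row lists: bridge, squares, rows, one. -/

namespace Vale.Agent.P355.H693W

open Finset Matrix Vale.Agent.P355 Vale.Agent.P355.H129
open Vale.Agent.P355.H138 (Tr vl)
open Vale.Agent.P355.H387 (CT)
open Vale.Agent.P355.H693.Inj (riv)

set_option linter.unusedSectionVars false
set_option linter.unusedSimpArgs false

variable {W : ℕ}

/-- **Inequality of the coloured level**: groups of lists, wide identifiers in the rows. -/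
theorem VIW_packed {m N c K : ℕ} {B : Fin m → M6} (hB : IsMUBs B) (hc : 3 ≤ c) {ctG : H693.GT}
    {L : List H693.VR} (hL : (L.all fun r => r.ok N c K (H693.tabG ctG) 6 0) = true)
    {l : List (ℤ × Bool × ℤ)} (hl : L.map H693.VR.term = l) {tr : Tr} {ct : CT}
    {ids : List ℕ} {PT QT MT MT' M : ℕ}
    (hpk : pk W tr l ids = some ((PT, MT), (QT, MT')))
    {lT lS lR : List (ℕ × ℕ)} {e E : ℕ}
    (hT : ∀ x, H138.Good false x → H182.N7x x → BrK K 46656 x W tr ct lT PT QT M)
    (hS : ∀ x, H138.Good false x → H182.N7x x → 0 ≤ H387.evL (riv x) ct lS)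
    (hR : ∀ x, H138.Good false x → H182.N7x x → H998.Q.RwW x ct lR)
    (hM : MT < 2 ^ W) (hM' : MT' < 2 ^ W) (hM'' : M < 2 ^ W)
    (h1 : isOne ct e = true) (he : Nat.land e 1208925819614629174706175 = e)
    (hG : ∀ F : Bool → H693.Inj.Mt → ℝ, (∀ b M, |F b M| ≤ 5 / 2) →
      |H387.evL F ct lT - (H387.evL F ct lS + (H998.Q.evL F ct lR + H387.evL F ct (oneL e)))|
        ≤ 5 / 2 * ((E : ℕ) : ℝ))
    (hμ : 5 * E < 2 * Nat.shiftRight e 19) :
    0 ≤ H693.valT (H147.cv B N c) ctG (L.map H693.VR.ct) := by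
  refine VIS_packed hB hc hL hl hpk hT hM hM' hM'' h1 he (E := E) ?_ hμ
  intro x hx hN
  refine ⟨H387.evL (riv x) ct lS, hS x hx hN, ?_⟩
  have h := hG (riv x) fun b M => H693.Inj.abs_riv_le hx.1 b M
  have hr := hR x hx hN
  unfold H998.Q.RwW at hr
  rw [hr, zero_add] at h
  exact h

end Vale.Agent.P355.H693W
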