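import Vale.Agent.P355.H129X.Mt0
import Vale.Agent.P355.H693W.Fin4
import Vale.Agent.P355.H998.Q.Gl

/-! End step with frames with a mark inside the squares and the rows, readings without mark. -/

namespace Vale.Agent.P355.H693W

open Finset Matrix Vale.Agent.P355 Vale.Agent.P355.H129
open Vale.Agent.P355.H138 (Tr RwP vl)
open Vale.Agent.P355.H387 (evL CT)
open Vale.Agent.P355.H693.Inj (riv Mt)

set_option linter.unusedSectionVars false
set_option linter.unusedSimpArgs false

variable {W : ℕ}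

/-- **Inequality of the coloured level, frames with a mark orthogonal to the gauge vector**,
readings without mark; one value for squares and rows. -/
theorem VIM_packed {m N c K : ℕ} {B : Fin m → M6} (hB : IsMUBs B) (hc : 3 ≤ c) {ctG : H693.GT}
    {L0 : List H693.VR} (hL0 : (L0.all fun r => r.ok N c K (H693.tabG ctG) 6 0) = true)
    {l : List (ℤ × Bool × ℤ)} (hl : L0.map H693.VR.term = l)
    {tr : Tr} {ct : CT} {ids : List ℕ} {PT QT MT MT' M : ℕ}
    (hpk : pk W tr l ids = some ((PT, MT), (QT, MT')))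
    {lT : List (ℕ × ℕ)} {e E : ℕ}
    (hT : ∀ x, H693.Ext0 x → H182.N7x x → BrK K 46656 x W tr ct lT PT QT M)
    (hM : MT < 2 ^ W) (hM' : MT' < 2 ^ W) (hM'' : M < 2 ^ W)
    (h1 : isOne ct e = true) (he : Nat.land e 1208925819614629174706175 = e)
    (hF : ∀ x, H693.Ext0 x → H182.N7x x → ∃ s : ℝ, 0 ≤ s ∧
      |evL (riv x) ct lT - (s + evL (riv x) ct (oneL e))| ≤ 5 / 2 * (E : ℝ))
    (hμ : 5 * E < 2 * Nat.shiftRight e 19) :
    0 ≤ H693.valT (H147.cv B N c) ctG (L0.map H693.VR.ct) := by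
  have h := H693.V0_T hB hc (L := []) (L0 := L0) (ct := ctG) (K := K) rfl hL0 fun x hx hN => by
    obtain ⟨s, hs, hF'⟩ := hF x hx hN
    have h0 := (lval_posS hpk (hT x hx hN) hs hM hM' hM'' h1 he hF' hμ).le
    rw [← H693.lval_append]
    simpa [hl] using h0
  have h2 : (0 : ℝ) ≤ H693.valT (H147.cv B N c) ctG (H693.sclT 5 (L0.map H693.VR.ct)) := by
    simpa [H693.sclT, H693.valT] using h
  rw [H693.valT_scl] at h2
  have h3 : (0 : ℝ) < ((5 : ℤ) : ℝ) := by norm_num
  exact (mul_nonneg_iff_of_pos_left h3).1 h2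

end Vale.Agent.P355.H693W
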