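import Vale.Agent.P355.H387.Bridge

/-! Label-only squares of injective classes for families indexed by finite types, and averages over
the placements of internal vertices. -/

namespace Vale.Agent.P355.H693W

open Finset Vale.Agent.P355 Vale.Agent.P355.H138 Vale.Agent.P355.H693.Inj
open Vale.Agent.P355.H387 (Cls)

set_option linter.unusedSectionVars false

variable {x : Fin 7 → Fin 7 → ℂ}

/-- positive semidefinite real matrices on a finite type. -/
def PSDF {ι : Type} [Fintype ι] (G : ι → ι → ℝ) : Prop :=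
  ∀ z : ι → ℂ, 0 ≤ ∑ i, ∑ j, G i j * (z i * star (z j)).re

/-- label-only squares are nonnegative. -/
def SqF (F : Bool → Mt → ℝ) : Prop :=
  ∀ (ι : Type) [Fintype ι] (G : ι → ι → ℝ), PSDF G → ∀ (b : ι → Bool) (f : ι → Mt),
    0 ≤ ∑ i, ∑ j, G i j * ((par6 (b i) (b j) : ℝ) *
      F (xor (b i) (b j)) (fun p q => f i p q - f j p q))

theorem mon_sub' (h : Base x) (M N : Mt) (σ τ : Pm) :
    mon x (fun p q => M p q - N p q) σ τ = mon x M σ τ * star (mon x N σ τ) := by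
  unfold mon
  simp only [star_prod, ← Finset.prod_mul_distrib]
  refine Finset.prod_congr rfl fun p _ => Finset.prod_congr rfl fun q _ => ?_
  rw [h.star_zpow, ← zpow_add₀ (h.ne _ _), sub_eq_add_neg]

theorem iv_sosF (h : Base x) {ι : Type} [Fintype ι] (G : ι → ι → ℝ) (hG : PSDF G) (b : ι → Bool)
    (f : ι → Mt) : 0 ≤ ∑ i, ∑ j, G i j * (pw6 (b i) * pw6 (b j)) *
      (iv x (fun p q => f i p q - f j p q)).re := by
  have h1 : ∀ i j, (iv x (fun p q => f i p q - f j p q)).re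
      = (518400⁻¹ : ℝ) * ∑ σ : Pm, ∑ τ : Pm, (mon x (f i) σ τ * star (mon x (f j) σ τ)).re := by
    intro i j
    unfold iv
    have e : (518400⁻¹ : ℂ) = ((518400⁻¹ : ℝ) : ℂ) := by push_cast; rfl
    rw [e, Complex.re_ofReal_mul, Complex.re_sum]
    simp only [Complex.re_sum, mon_sub' h]
  have h3 : ∀ (σ τ : Pm) (i j : ι),
      (((pw6 (b i) : ℂ) * mon x (f i) σ τ) * star ((pw6 (b j) : ℂ) * mon x (f j) σ τ)).re
      = (pw6 (b i) * pw6 (b j)) * (mon x (f i) σ τ * star (mon x (f j) σ τ)).re := by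
    intro σ τ i j
    have e1 : ((pw6 (b i) : ℂ) * mon x (f i) σ τ) * star ((pw6 (b j) : ℂ) * mon x (f j) σ τ)
        = ((pw6 (b i) * pw6 (b j) : ℝ) : ℂ) * (mon x (f i) σ τ * star (mon x (f j) σ τ)) := by
      rw [star_mul']
      have : star ((pw6 (b j) : ℝ) : ℂ) = ((pw6 (b j) : ℝ) : ℂ) := Complex.conj_ofReal _
      rw [this]; push_cast; ring
    rw [e1, Complex.re_ofReal_mul]
  have h2 : ∑ i, ∑ j, G i j * (pw6 (b i) * pw6 (b j)) *
      (iv x (fun p q => f i p q - f j p q)).re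
      = (518400⁻¹ : ℝ) * ∑ σ : Pm, ∑ τ : Pm, ∑ i, ∑ j, G i j *
          (((pw6 (b i) : ℂ) * mon x (f i) σ τ) * star ((pw6 (b j) : ℂ) * mon x (f j) σ τ)).re := by
    simp only [h1, h3]
    symm
    rw [Finset.mul_sum]
    have h4 : ∀ σ : Pm, ∑ τ : Pm, ∑ i, ∑ j,
        G i j * (pw6 (b i) * pw6 (b j) * (mon x (f i) σ τ * star (mon x (f j) σ τ)).re)
        = ∑ i, ∑ j, ∑ τ : Pm,
        G i j * (pw6 (b i) * pw6 (b j) * (mon x (f i) σ τ * star (mon x (f j) σ τ)).re) := by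
      intro σ
      rw [Finset.sum_comm]
      exact Finset.sum_congr rfl fun i _ => Finset.sum_comm
    simp only [h4, ← Finset.mul_sum]
    rw [Finset.sum_comm, Finset.mul_sum]
    refine Finset.sum_congr rfl fun i _ => ?_
    rw [Finset.sum_comm, Finset.mul_sum]
    refine Finset.sum_congr rfl fun j _ => ?_
    simp only [← Finset.mul_sum]
    ring
  rw [h2]
  refine mul_nonneg (by positivity) (Finset.sum_nonneg fun σ _ => Finset.sum_nonneg fun τ _ => ?_)
  exact hG fun i => (pw6 (b i) : ℂ) * mon x (f i) σ τ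

/-- **Label-only squares.** -/
theorem riv_sqF (h : Base x) : SqF (riv x) := by
  intro ι _ G hG b f
  have h1 := iv_sosF h G hG b f
  have h2 := iv_sosF h.transpose G hG b f
  have h4 : ∑ i, ∑ j, G i j * ((par6 (b i) (b j) : ℝ) *
      riv x (xor (b i) (b j)) (fun p q => f i p q - f j p q))
      = (1 / 2) * (∑ i, ∑ j, G i j * (pw6 (b i) * pw6 (b j)) *
          (iv x (fun p q => f i p q - f j p q)).re
        + ∑ i, ∑ j, G i j * (pw6 (b i) * pw6 (b j)) *
          (iv (fun r c => x c r) (fun p q => f i p q - f j p q)).re) := by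
    rw [← Finset.sum_add_distrib, Finset.mul_sum]
    refine Finset.sum_congr rfl fun i _ => ?_
    rw [← Finset.sum_add_distrib, Finset.mul_sum]
    refine Finset.sum_congr rfl fun j _ => ?_
    have e := pw6_mul (b i) (b j)
    unfold riv
    rw [← mul_assoc (par6 (b i) (b j) : ℝ), ← e]
    ring
  rw [h4]
  linarith

/-! ### Placements -/

/-- `3 × 3` flags: row `0` and column `0` are the labels. -/
abbrev Fl : Type := Option (Fin 3) → Option (Fin 3) → ℤ

/-- pairs of different internal positions. -/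
abbrev Pl : Type := {e : Fin 5 × Fin 5 // e.1 ≠ e.2}

/-- the placement. -/
def ph (e : Fin 5 × Fin 5) : Fin 3 → Fin 6 := ![0, e.1.succ, e.2.succ]

/-- standard placement. -/
def e0 : Pl := ⟨(0, 1), by decide⟩

/-- action of a permutation of the internal positions. -/
def aP (σ : Equiv.Perm (Fin 5)) : Equiv.Perm (Fin 6) :=
  (finSuccEquiv 5).trans ((Equiv.optionCongr σ).trans (finSuccEquiv 5).symm)

theorem aP_zero (σ : Equiv.Perm (Fin 5)) : aP σ 0 = 0 := by simp [aP]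

theorem aP_succ (σ : Equiv.Perm (Fin 5)) (i : Fin 5) : aP σ i.succ = (σ i).succ := by simp [aP]

/-- action on pairs. -/
def aE (σ : Equiv.Perm (Fin 5)) (e : Fin 5 × Fin 5) : Fin 5 × Fin 5 := (σ e.1, σ e.2)

theorem ph_aE (σ : Equiv.Perm (Fin 5)) (e : Fin 5 × Fin 5) : ph (aE σ e) = aP σ ∘ ph e := by
  funext i
  fin_cases i
  · exact (aP_zero σ).symm
  · exact (aP_succ σ e.1).symm
  · exact (aP_succ σ e.2).symm

/-- action on admissible pairs. -/
def aPl (σ : Equiv.Perm (Fin 5)) : Pl ≃ Pl where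
  toFun e := ⟨aE σ e.1, fun h => e.2 (σ.injective h)⟩
  invFun e := ⟨aE σ⁻¹ e.1, fun h => e.2 (σ⁻¹.injective h)⟩
  left_inv e := Subtype.ext (Prod.ext (by simp [aE]) (by simp [aE]))
  right_inv e := Subtype.ext (Prod.ext (by simp [aE]) (by simp [aE]))

theorem push_perm (σ τ : Pm) (φ ψ : Fin 3 → Fin 6) (n : Fl) (p q : Option (Fin 6)) :
    push (σ ∘ φ) (τ ∘ ψ) n (p.map σ) (q.map τ) = push φ ψ n p q := by
  unfold push
  refine Finset.sum_congr rfl fun a _ => Finset.sum_congr rfl fun b _ => ?_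
  have h1 : (a.map (σ ∘ φ) = p.map σ) ↔ (a.map φ = p) := by
    rw [← Option.map_map]
    exact (Option.map_injective σ.injective).eq_iff
  have h2 : (b.map (τ ∘ ψ) = q.map τ) ↔ (b.map ψ = q) := by
    rw [← Option.map_map]
    exact (Option.map_injective τ.injective).eq_iff
  simp only [h1, h2]

variable {F : Bool → Mt → ℝ}

/-- the product of two flags for given placements. -/
noncomputable def tF (F : Bool → Mt → ℝ) (b : Bool) (n n' : Fl) (φ ψ φ' ψ' : Fin 3 → Fin 6) : ℝ :=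
  F b (fun p q => push φ ψ n p q - push φ' ψ' n' p q)

theorem tF_perm (hC : Cls F) (b : Bool) (n n' : Fl) (φ ψ φ' ψ' : Fin 3 → Fin 6) (σ τ : Pm) :
    tF F b n n' (σ ∘ φ) (τ ∘ ψ) (σ ∘ φ') (τ ∘ ψ') = tF F b n n' φ ψ φ' ψ' := by
  unfold tF
  rw [← hC.perm b (fun p q => push (σ ∘ φ) (τ ∘ ψ) n p q - push (σ ∘ φ') (τ ∘ ψ') n' p q) σ τ]
  simp only [push_perm]

/-- sum over the placements of the second flag. -/
noncomputable def sF (F : Bool → Mt → ℝ) (b : Bool) (n n' : Fl) : ℝ :=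
  ∑ f : Pl, ∑ g : Pl, tF F b n n' (ph e0.1) (ph e0.1) (ph f.1) (ph g.1)

theorem exists_pl (e : Pl) : ∃ σ : Equiv.Perm (Fin 5), aE σ e0.1 = e.1 := by
  obtain ⟨⟨i, j⟩, h⟩ := e
  have h' : i ≠ j := h
  have key : ∀ i j : Fin 5, i ≠ j → ∃ a b c d : Fin 5,
      (Equiv.swap a b * Equiv.swap c d) 0 = i ∧ (Equiv.swap a b * Equiv.swap c d) 1 = j := by
    decide +kernel
  obtain ⟨a, b, c, d, h1, h2⟩ := key i j h'
  exact ⟨_, Prod.ext h1 h2⟩

theorem sF_any (hC : Cls F) (b : Bool) (n n' : Fl) (e e' : Pl) :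
    ∑ f : Pl, ∑ g : Pl, tF F b n n' (ph e.1) (ph e'.1) (ph f.1) (ph g.1) = sF F b n n' := by
  obtain ⟨σ, hσ⟩ := exists_pl e
  obtain ⟨τ, hτ⟩ := exists_pl e'
  unfold sF
  symm
  refine Fintype.sum_equiv (aPl σ) _ _ fun f => ?_
  refine Fintype.sum_equiv (aPl τ) _ _ fun g => ?_
  have h1 : ((aPl σ) f).1 = aE σ f.1 := rfl
  have h2 : ((aPl τ) g).1 = aE τ g.1 := rfl
  rw [h1, h2, ← hσ, ← hτ, ph_aE, ph_aE, ph_aE, ph_aE]
  exact (tF_perm hC b n n' _ _ _ _ (aP σ) (aP τ)).symm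

theorem card_Pl : Fintype.card Pl = 20 := by decide

theorem sum4 {ι κ : Type} [Fintype ι] [Fintype κ] (g : ι → κ → ι → κ → ℝ) :
    ∑ i : ι × κ, ∑ j : ι × κ, g i.1 i.2 j.1 j.2 = ∑ i, ∑ j, ∑ e, ∑ f, g i e j f := by
  rw [Fintype.sum_prod_type]
  refine Finset.sum_congr rfl fun i _ => ?_
  have h : ∀ e : κ, ∑ j : ι × κ, g (i, e).1 (i, e).2 j.1 j.2 = ∑ j, ∑ f, g i e j f := fun e => by
    rw [Fintype.sum_prod_type]
  rw [Finset.sum_congr rfl fun e _ => h e, Finset.sum_comm]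

/-- product of a matrix with the all-ones matrix. -/
theorem PSDF.ones {ι κ : Type} [Fintype ι] [Fintype κ] {G : ι → ι → ℝ} (hG : PSDF G) :
    PSDF (fun i j : ι × κ => G i.1 j.1) := by
  intro z
  have h2 := hG fun i => ∑ e : κ, z (i, e)
  refine h2.trans_eq ?_
  rw [sum4 fun i e j f => G i j * (z (i, e) * star (z (j, f))).re]
  refine Finset.sum_congr rfl fun i _ => Finset.sum_congr rfl fun j _ => ?_
  rw [star_sum, Finset.sum_mul_sum, Complex.re_sum, Finset.mul_sum]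
  refine Finset.sum_congr rfl fun e _ => ?_
  rw [Complex.re_sum, Finset.mul_sum]

/-- the inner sum. -/
theorem inner_sum (hC : Cls F) (c p : ℝ) (b : Bool) (n n' : Fl) (e : Pl × Pl) :
    ∑ f : Pl × Pl, c * (p * tF F b n n' (ph e.1.1) (ph e.2.1) (ph f.1.1) (ph f.2.1))
      = c * (p * sF F b n n') := by
  rw [← Finset.mul_sum, ← Finset.mul_sum, Fintype.sum_prod_type]
  rw [← sF_any hC b n n' e.1 e.2]

/-- **Squares of flags with internal vertices.** -/
theorem sosP (hC : Cls F) (hS : SqF F) {ι : Type} [Fintype ι] (G : ι → ι → ℝ) (hG : PSDF G)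
    (b : ι → Bool) (n : ι → Fl) :
    0 ≤ ∑ i, ∑ j, G i j * ((par6 (b i) (b j) : ℝ) * sF F (xor (b i) (b j)) (n i) (n j)) := by
  have h1 := hS (ι × (Pl × Pl)) (fun i j => G i.1 j.1) hG.ones (fun i => b i.1)
    (fun i => push (ph i.2.1.1) (ph i.2.2.1) (n i.1))
  have e0 := sum4 (ι := ι) (κ := Pl × Pl) fun i e j f => G i j * ((par6 (b i) (b j) : ℝ) *
      tF F (xor (b i) (b j)) (n i) (n j) (ph e.1.1) (ph e.2.1) (ph f.1.1) (ph f.2.1))
  have h2 : 0 ≤ ∑ i : ι × (Pl × Pl), ∑ j : ι × (Pl × Pl), G i.1 j.1 *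
      ((par6 (b i.1) (b j.1) : ℝ) * tF F (xor (b i.1) (b j.1)) (n i.1) (n j.1)
        (ph i.2.1.1) (ph i.2.2.1) (ph j.2.1.1) (ph j.2.2.1)) := h1
  rw [e0] at h2
  have e1 : ∑ i, ∑ j, ∑ e : Pl × Pl, ∑ f : Pl × Pl, G i j * ((par6 (b i) (b j) : ℝ) *
      tF F (xor (b i) (b j)) (n i) (n j) (ph e.1.1) (ph e.2.1) (ph f.1.1) (ph f.2.1))
      = 400 * ∑ i, ∑ j, G i j * ((par6 (b i) (b j) : ℝ) * sF F (xor (b i) (b j)) (n i) (n j)) := by
    rw [Finset.mul_sum]
    refine Finset.sum_congr rfl fun i _ => ?_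
    rw [Finset.mul_sum]
    refine Finset.sum_congr rfl fun j _ => ?_
    rw [Finset.sum_congr rfl fun e _ => inner_sum hC (G i j) (par6 (b i) (b j) : ℝ)
      (xor (b i) (b j)) (n i) (n j) e, Finset.sum_const, Finset.card_univ,
      Fintype.card_prod, card_Pl, nsmul_eq_mul]
    norm_num
  rw [e1] at h2
  linarith

end Vale.Agent.P355.H693W
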