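import Vale.Agent.P355.H693W.Sq

/-! Symmetrisation under transposition and negation. -/

namespace Vale.Agent.P355.H693W

open Finset Vale.Agent.P355 Vale.Agent.P355.H138 Vale.Agent.P355.H693.Inj
open Vale.Agent.P355.H387 (Cls)

set_option linter.unusedSectionVars false

variable {F : Bool → Mt → ℝ}

/-- transposed flag. -/
def tr (n : Fl) : Fl := fun p q => n q p
/-- negated flag. -/
def ng (n : Fl) : Fl := fun p q => - n p q

theorem tr_tr (n : Fl) : tr (tr n) = n := rfl
theorem ng_ng (n : Fl) : ng (ng n) = n := by funext p q; simp [ng]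
theorem tr_ng (n : Fl) : tr (ng n) = ng (tr n) := rfl

theorem push_tr (φ ψ : Fin 3 → Fin 6) (n : Fl) (p q : Option (Fin 6)) :
    push φ ψ (tr n) p q = push ψ φ n q p := by
  unfold push tr
  rw [Finset.sum_comm]
  refine Finset.sum_congr rfl fun a _ => Finset.sum_congr rfl fun b _ => ?_
  simp only [and_comm]

theorem push_ng (φ ψ : Fin 3 → Fin 6) (n : Fl) (p q : Option (Fin 6)) :
    push φ ψ (ng n) p q = - push φ ψ n p q := by
  unfold push ng
  rw [← Finset.sum_neg_distrib]
  refine Finset.sum_congr rfl fun a _ => ?_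
  rw [← Finset.sum_neg_distrib]
  refine Finset.sum_congr rfl fun b _ => ?_
  split_ifs <;> simp

theorem sF_tr (hC : Cls F) (b : Bool) (n n' : Fl) : sF F b (tr n) (tr n') = sF F b n n' := by
  unfold sF
  rw [Finset.sum_comm]
  refine Finset.sum_congr rfl fun f _ => Finset.sum_congr rfl fun g _ => ?_
  unfold tF
  simp only [push_tr]
  exact hC.swap b (fun p q => push (ph e0.1) (ph e0.1) n p q - push (ph f.1) (ph g.1) n' p q)

theorem sF_ng (hC : Cls F) (b : Bool) (n n' : Fl) : sF F b (ng n) (ng n') = sF F b n n' := by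
  unfold sF
  refine Finset.sum_congr rfl fun f _ => Finset.sum_congr rfl fun g _ => ?_
  unfold tF
  simp only [push_ng]
  rw [← hC.neg b (fun p q => push (ph e0.1) (ph e0.1) n p q - push (ph f.1) (ph g.1) n' p q)]
  congr 1
  funext p q
  ring

/-- the four images of a flag. -/
def orb (t c : Bool) (n : Fl) : Fl := cond c (ng (cond t (tr n) n)) (cond t (tr n) n)

theorem sF_orb (hC : Cls F) (b : Bool) (n n' : Fl) (t c t' c' : Bool) :
    sF F b (orb t c n) (orb t' c' n') = sF F b n (orb (xor t t') (xor c c') n') := by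
  have h1 : ∀ m m' : Fl, sF F b (tr m) m' = sF F b m (tr m') := fun m m' => by
    rw [← sF_tr hC b m (tr m'), tr_tr]
  have h2 : ∀ m m' : Fl, sF F b (ng m) m' = sF F b m (ng m') := fun m m' => by
    rw [← sF_ng hC b m (ng m'), ng_ng]
  cases t <;> cases c <;> cases t' <;> cases c' <;>
    simp [orb, h1, h2, tr_ng, ng_ng, tr_tr]

/-- character. -/
def chi (et ec : ℝ) (t c : Bool) : ℝ := (if t then et else 1) * (if c then ec else 1)

theorem chi_mul {et ec : ℝ} (h1 : et * et = 1) (h2 : ec * ec = 1) (t c t' c' : Bool) :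
    chi et ec t c * chi et ec t' c' = chi et ec (xor t t') (xor c c') := by
  cases t <;> cases c <;> cases t' <;> cases c' <;> simp [chi] <;>
    first
    | ring1
    | linear_combination h1
    | linear_combination h2
    | linear_combination et * h2
    | linear_combination ec * h1
    | linear_combination ec * ec * h1 + h2
    | skip

theorem PSDF.twist {ι κ : Type} [Fintype ι] [Fintype κ] {G : ι → ι → ℝ} (hG : PSDF G)
    (c : κ → ℝ) : PSDF (fun i j : ι × κ => G i.1 j.1 * (c i.2 * c j.2)) := by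
  intro z
  have h2 := hG fun i => ∑ e : κ, (c e : ℂ) * z (i, e)
  refine h2.trans_eq ?_
  rw [sum4 fun i e j f => G i j * (c e * c f) * (z (i, e) * star (z (j, f))).re]
  refine Finset.sum_congr rfl fun i _ => Finset.sum_congr rfl fun j _ => ?_
  rw [star_sum, Finset.sum_mul_sum, Complex.re_sum, Finset.mul_sum]
  refine Finset.sum_congr rfl fun e _ => ?_
  rw [Complex.re_sum, Finset.mul_sum]
  refine Finset.sum_congr rfl fun f _ => ?_
  have e1 : (c e : ℂ) * z (i, e) * star ((c f : ℂ) * z (j, f))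
      = ((c e * c f : ℝ) : ℂ) * (z (i, e) * star (z (j, f))) := by
    rw [star_mul']
    have : star ((c f : ℝ) : ℂ) = ((c f : ℝ) : ℂ) := Complex.conj_ofReal _
    rw [this]; push_cast; ring
  rw [e1, Complex.re_ofReal_mul]
  ring

/-- sum over the four images. -/
noncomputable def s4 (F : Bool → Mt → ℝ) (et ec : ℝ) (b : Bool) (n n' : Fl) : ℝ :=
  sF F b n n' + et * sF F b n (tr n') + ec * sF F b n (ng n') + et * ec * sF F b n (ng (tr n'))

theorem orb_sum (hC : Cls F) {et ec : ℝ} (h1 : et * et = 1) (h2 : ec * ec = 1) (g p : ℝ)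
    (b : Bool) (n n' : Fl) :
    ∑ e : Bool × Bool, ∑ f : Bool × Bool, g * (chi et ec e.1 e.2 * chi et ec f.1 f.2) *
      (p * sF F b (orb e.1 e.2 n) (orb f.1 f.2 n')) = 4 * (g * (p * s4 F et ec b n n')) := by
  simp only [sF_orb hC, chi_mul h1 h2]
  simp only [Fintype.sum_prod_type, Fintype.sum_bool]
  simp only [Bool.xor_true, Bool.xor_false, Bool.not_true, Bool.not_false]
  unfold s4 chi orb
  simp only [if_true, if_false, Bool.false_eq_true, cond_true, cond_false]
  ring

/-- **Symmetrised squares.** -/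
theorem sosS (hC : Cls F) (hS : SqF F) {ι : Type} [Fintype ι] (G : ι → ι → ℝ) (hG : PSDF G)
    (b : ι → Bool) (n : ι → Fl) {et ec : ℝ} (h1 : et * et = 1) (h2 : ec * ec = 1) :
    0 ≤ ∑ i, ∑ j, G i j * ((par6 (b i) (b j) : ℝ) * s4 F et ec (xor (b i) (b j)) (n i) (n j)) := by
  have h := sosP hC hS _ (hG.twist fun e : Bool × Bool => chi et ec e.1 e.2)
    (fun i => b i.1) (fun i => orb i.2.1 i.2.2 (n i.1))
  have e0 := sum4 (ι := ι) (κ := Bool × Bool) fun i e j f =>
    G i j * (chi et ec e.1 e.2 * chi et ec f.1 f.2) * ((par6 (b i) (b j) : ℝ) *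
      sF F (xor (b i) (b j)) (orb e.1 e.2 (n i)) (orb f.1 f.2 (n j)))
  have h' : 0 ≤ ∑ i : ι × (Bool × Bool), ∑ j : ι × (Bool × Bool),
      G i.1 j.1 * (chi et ec i.2.1 i.2.2 * chi et ec j.2.1 j.2.2) *
      ((par6 (b i.1) (b j.1) : ℝ) * sF F (xor (b i.1) (b j.1)) (orb i.2.1 i.2.2 (n i.1))
        (orb j.2.1 j.2.2 (n j.1))) := h
  rw [e0] at h'
  have e1 : ∑ i, ∑ j, ∑ e : Bool × Bool, ∑ f : Bool × Bool,
      G i j * (chi et ec e.1 e.2 * chi et ec f.1 f.2) * ((par6 (b i) (b j) : ℝ) *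
      sF F (xor (b i) (b j)) (orb e.1 e.2 (n i)) (orb f.1 f.2 (n j)))
      = 4 * ∑ i, ∑ j, G i j * ((par6 (b i) (b j) : ℝ) *
        s4 F et ec (xor (b i) (b j)) (n i) (n j)) := by
    rw [Finset.mul_sum]
    refine Finset.sum_congr rfl fun i _ => ?_
    rw [Finset.mul_sum]
    exact Finset.sum_congr rfl fun j _ => orb_sum hC h1 h2 _ _ _ _ _
  rw [e1] at h'
  linarith

end Vale.Agent.P355.H693W
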