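import Vale.Agent.P355.H147.T2W

/-! A positive lower bound of the squares of the triple products from one type. -/

namespace Vale.Agent.P355.H147

open Finset Matrix Vale.Agent.P355
open Vale.Agent.P355.H998.E
open Vale.Agent.P355.H693 (w2c net T2 T2_emb gTri wTri fTri iTri net_fTri gv_tri pwp)
open Vale.Agent.P355.H129 (force force_eq NRep tP tM tV resL1)

set_option linter.unusedSectionVars false

variable {m c : ℕ} {B : Fin m → M6}

/-- numerical check of the end, the constant on the other side. -/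
def endCkN (Ws nk tm P Q d v c0 e0 c1 e1 E : ℕ) : Bool :=
  and (Nat.blt (Nat.mul nk nk) 18446744073709551616)
    (force (Nat.mul (Nat.mul nk nk) tm) fun M =>
      resL1 d Ws v (Nat.add (Nat.shiftRight P 64) (tP Ws [(c0, e0)]))
        (Nat.add (Nat.shiftRight Q 64) (tP Ws [(c1, e1)]))
        (Nat.add M (tM [(c0, e0)])) (Nat.add M (tM [(c1, e1)])) E)

/-- **A lower bound of the squares of the triple products from one type**, negative constant. -/
theorem t2_lowerN (hB : IsMUBs B) (hc : 3 ≤ c) (hcm : c ≤ m) {X : Type*} {nk : ℕ}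
    {act : ℕ → X → X} {ν : ℕ → ℕ → ℕ} {M : X → X → ℝ} {x : ℕ → X} {κ : ℝ} {cls : ℕ → ℕ}
    {t : TyE} (hs : SOk t.n nk act ν M x κ t.R (fun i => cvB B c (cls i)) t.BP t.EL)
    (ht : t.Ok ν nk) {P Q : ℕ} (hP : Ch t true 0 nk 0 P) (hQ : Ch t false 0 nk 0 Q)
    {d v c0 e0 c1 e1 E : ℕ} (h0 : empCk (cls e0) = true) (h1 : triCk (cls e1) = true)
    (he : endCkN t.Ws nk t.m P Q d v c0 e0 c1 e1 E = true) :
    0 ≤ -(c0 : ℝ) + c1 * ((Fintype.card (Fin 3 ↪ Fin m) : ℝ)⁻¹ * (T2 B).re) + E * (5 / 2) := by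
  unfold endCkN at he
  rw [Bool.and_eq_true, force_eq] at he
  obtain ⟨e2, e3⟩ := he
  obtain ⟨p, q, hpq, h3, h4⟩ := ty_result hs ht hP hQ e2
  have h5 : ∀ i, |(fun i => cvB B c (cls i)) i| ≤ 5 / 2 := fun i => abs_cvB_le hB (cls i)
  have s1 : ∀ X : ℕ, Nat.shiftRight X 64 = X / 2 ^ 64 := fun X => by
    show X >>> 64 = _
    rw [Nat.shiftRight_eq_div_pow]
  rw [s1, s1] at e3
  have h6 := final_ineq h5 hpq h3 h4 [(c1, e1)] [(c0, e0)] e3
  have h7 : tV (fun i => cvB B c (cls i)) [(c1, e1)]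
      = c1 * ((Fintype.card (Fin 3 ↪ Fin m) : ℝ)⁻¹ * (T2 B).re) := by
    unfold tV
    simp only [List.map_cons, List.map_nil, List.sum_cons, List.sum_nil]
    rw [tri_word hB hc hcm h1]
    ring
  have h8 : tV (fun i => cvB B c (cls i)) [(c0, e0)] = c0 := by
    unfold tV
    simp only [List.map_cons, List.map_nil, List.sum_cons, List.sum_nil]
    rw [emp_word hcm h0]
    ring
  rw [h7, h8] at h6
  linarith

end Vale.Agent.P355.H147
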