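import Vale.Agent.P355.H693.GRes
import Vale.Agent.P355.H147.KBr

/-! The result of a formal type with rounded coefficients, chunks, sums of lists. -/

namespace Vale.Agent.P355.H693W

open Finset Matrix Vale.Agent.P355 Vale.Agent.P355.H147
open Vale.Agent.P355.H998.E
open Vale.Agent.P355.H693 (tck tabG valT valT_append valT_cons valT_scl sclT GT)

variable {m c : ℕ} {B : Fin m → M6}

/-- all coefficients times `2 ^ k`. -/
def scD (k : ℕ) (D : List FD) : List FD := D.map fun d => ((2 : ℤ) ^ k * d.1, d.2)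

theorem kbAll_scD {tab cls : ℕ → ℕ} (k : ℕ) (D : List FD) :
    kbAll c tab cls (scD k D) = kbAll c tab cls D := by
  unfold kbAll scD
  rw [List.all_map]
  rfl

theorem trm_scD (k : ℕ) (D : List FD) : trm (scD k D) = sclT ((2 : ℤ) ^ k) (trm D) := by
  unfold trm scD sclT
  rw [List.map_map, List.map_map]
  rfl

/-- **The result of a type, rounded.** -/
theorem ty_Tk (hB : IsMUBs B) (hcm : c ≤ m) {X : Type*} {nk : ℕ}
    {act : ℕ → X → X} {ν : ℕ → ℕ → ℕ} {M : X → X → ℝ} {x : ℕ → X} {κ : ℝ} {cls : ℕ → ℕ}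
    {t : TyE} (hs : SOk t.n nk act ν M x κ t.R (fun i => cvB B c (cls i)) t.BP t.EL)
    (ht : t.Ok ν nk) {P Q : ℕ} (hP : Ch t true 0 nk 0 P) (hQ : Ch t false 0 nk 0 Q)
    {d v E k e : ℕ} {ct : GT} {D : List FD} {T0 : ℕ}
    (h0 : tck 8 c (tabG ct) 0 (fun _ => 0) (fun _ _ => 96) T0 = true)
    (hk : kbAll c (tabG ct) cls D = true)
    (he : endL t.Ws nk t.m P Q d v (scD k D) E = true)
    (hE : 5 * E ≤ 2 ^ (k + 1) * e) :
    0 ≤ valT (cv B 8 c) ct (trm D ++ [((e : ℤ), T0)]) := by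
  have h1 := ty_T hB hcm hs ht hP hQ (al := 1) (ct := ct) (D := scD k D) h0
    (by rw [kbAll_scD]; exact hk) he
  rw [valT_append, valT_scl, valT_cons, trm_scD, valT_scl] at h1
  rw [valT_append, valT_cons]
  have h7 : cv B 8 c (tabG ct (H693.tId T0)) = 1 := H693.empty_key hB hcm h0
  have h8 : valT (cv B 8 c) ct [] = 0 := rfl
  rw [h7, h8] at h1
  rw [h7, h8]
  have h9 : (5 : ℝ) * E ≤ 2 ^ (k + 1) * e := by exact_mod_cast hE
  push_cast at h1
  have h10 : (0 : ℝ) < 2 ^ k := by positivity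
  have h11 : (2 : ℝ) ^ (k + 1) = 2 * 2 ^ k := by rw [pow_succ]; ring
  rw [h11] at h9
  by_contra hcon
  have h12 := not_le.1 hcon
  have h13 : 2 * 2 ^ k * (valT (cv B 8 c) ct (trm D) + ((e : ℝ) * 1 + 0)) < 0 :=
    mul_neg_of_pos_of_neg (by positivity) h12
  nlinarith

theorem kbAll_app {tab cls : ℕ → ℕ} {D D' : List FD} (h : kbAll c tab cls D = true)
    (h' : kbAll c tab cls D' = true) : kbAll c tab cls (D ++ D') = true := by
  unfold kbAll at *
  rw [List.all_append, h, h']; rfl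

/-- sums of inequalities. -/
theorem add_T {g : ℕ → ℝ} {ct : GT} {l l' : List (ℤ × ℕ)} (h : 0 ≤ valT g ct l)
    (h' : 0 ≤ valT g ct l') : 0 ≤ valT g ct (l ++ l') := by
  rw [valT_append]; exact add_nonneg h h'

/-- multiples. -/
theorem scl_T {g : ℕ → ℝ} {ct : GT} {l : List (ℤ × ℕ)} (a : ℕ) (h : 0 ≤ valT g ct l) :
    0 ≤ valT g ct (sclT (a : ℤ) l) := by
  rw [valT_scl]
  exact mul_nonneg (by positivity) h

theorem vr_app {N K wb wb' : ℕ} {ct : GT} {L L' : List H693.VR}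
    (h : (L.all fun r => r.ok N c K (tabG ct) wb wb') = true)
    (h' : (L'.all fun r => r.ok N c K (tabG ct) wb wb') = true) :
    ((L ++ L').all fun r => r.ok N c K (tabG ct) wb wb') = true := by
  rw [List.all_append, h, h']; rfl

end Vale.Agent.P355.H693W
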